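import Vale.Agent.P167.H452.BE.Defs2
import Vale.Agent.P167.H192.TA.Str
import Vale.Agent.P167.H704.Q.Rs

/-!
# P167, general `q`, block BETA: circuits of one colour keep the strands away from the core (`S_NB`)
-/

namespace Vale.Agent.P167.H640.Nb

open Finset Relation Vale.Agent.P145.FB Vale.Agent.P153 Vale.Agent.P153.Topo Vale.Agent.P167
  Vale.Agent.P167.FK Vale.Agent.P167.H632 Vale.Agent.P167.H704
open Vale.Agent.P167.H871 (Pt)
open Vale.Agent.P167.BR (be be_bd Vz mem_eds Run run_of_mem pcs hbox mem_hbox Flt IsLp)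
open Vale.Agent.P167.H436.ND (Win Zg mem_Zg)
open Vale.Agent.P167.H192.TA (sc sc_par run_sc sc_hdv sc_tlv Pw)
open Vale.Agent.P167.H704.Q (rs_fk prC_inter)
open Vale.Agent.P167.QX (exists_xy)
open Vale.Agent.P167.FKA (Pr_nonneg)
open Vale.Agent.P167.H452.BE (S_NB cb)

/-- Crossings of a rectangle in different directions and of different colours exclude each other. -/
theorem xcl {e : Bool} {a b p q : ℤ} {ω : Cfg} (h : ω ∈ Hc (!e) a b p q) (h' : ω ∈ Vc e a b p q) :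
    False := by
  obtain ⟨s, t, h1, h2, h3, h4⟩ := h
  obtain ⟨s', t', k1, k2, k3, k4⟩ := h'
  cases e
  · rw [cs_false] at k4
    exact easy (F := op ω) h4 h1 h2 (by simpa [pr] using h3) k4
      (by simpa [pr] using k3) (Or.inl k1) (Or.inl k2)
  · have h4' : PConn (op ω)ᶜ (Rect a b p q) s t := by
      rw [← cs_false]
      exact h4
    have h5 := h4'.swap
    have h5' := k4.swap
    have e1 : Prod.swap ⁻¹' (Rect a b p q) = Rect p q a b := by
      ext z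
      rw [Set.mem_preimage, mem_rect, mem_rect]
      simp only [Prod.fst_swap, Prod.snd_swap]
      tauto
    rw [e1] at h5 h5'
    refine easy (F := Prod.swap ⁻¹' (op ω)) h5' (y := s.swap) (y' := t.swap) (by simpa using k1)
      (by simpa using k2) ?_ h5 ?_ (Or.inl (by simpa using h1)) (Or.inl (by simpa using h2))
    · simp only [Prod.fst_swap, Prod.snd_swap]
      simp only [pr, if_true] at k3
      omega
    · simp only [Prod.fst_swap, Prod.snd_swap]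
      simp only [pr, Bool.not_true, Bool.false_eq_true, if_false] at h3
      omega

/-- Four crossings around a box. -/
theorem four {e : Bool} {X1 X2 Y1 Y2 w : ℤ} (hw : 1 ≤ w) {ω : Cfg} {s t : Pt}
    (h : PConn (cs (!e) ω) Set.univ s t) (hp : (s.1 + s.2) % 2 = pr (!e))
    (hs : X1 ≤ s.1 ∧ s.1 ≤ X2 ∧ Y1 ≤ s.2 ∧ s.2 ≤ Y2)
    (ht : t.1 ≤ X1 - w ∨ X2 + w ≤ t.1 ∨ t.2 ≤ Y1 - w ∨ Y2 + w ≤ t.2)
    (hL : ω ∈ Vc e (X1 - w) X1 (Y1 - w) (Y2 + w)) (hR : ω ∈ Vc e X2 (X2 + w) (Y1 - w) (Y2 + w))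
    (hB : ω ∈ Hc e (X1 - w) (X2 + w) (Y1 - w) Y1) (hT : ω ∈ Hc e (X1 - w) (X2 + w) Y2 (Y2 + w)) :
    False := by
  have xcl' : ∀ {a b p q : ℤ}, ω ∈ Vc (!e) a b p q → ω ∈ Hc e a b p q → False := by
    intro a b p q h1 h2
    refine xcl (e := !e) ?_ h1
    rw [Bool.not_not]
    exact h2
  obtain ⟨z, hz, h1, -⟩ := pconn_cut_first
    (fun z => max (max (X1 - z.1) (z.1 - X2)) (max (Y1 - z.2) (z.2 - Y2)))
    (fun u v huv => by
      have h1 := huv.1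
      have h2 := huv.2.1
      omega) h (R := w) (by omega) (by omega)
  have hpz : (z.1 + z.2) % 2 = pr (!e) := by rw [← hp]; exact h1.parity.symm
  have hzc : X1 - z.1 = w ∨ z.1 - X2 = w ∨ Y1 - z.2 = w ∨ z.2 - Y2 = w := by omega
  rcases hzc with k | k | k | k
  · obtain ⟨z', m1, m2, -⟩ := pconn_cut_first (fun v => v.1) col_inc h1.symm (R := X1)
      (by omega) (by omega)
    refine xcl ⟨z, z', by omega, m1, hpz, m2.mono subset_rfl ?_⟩ hL
    rintro v ⟨⟨-, hv⟩, hv'⟩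
    simp only [Set.mem_ofPred_eq] at hv hv'
    rw [mem_rect]
    omega
  · obtain ⟨z', m1, m2, -⟩ := pconn_cut_first (fun v => -v.1) (fun u v h => by
      have := h.1
      omega) h1.symm (R := -X2) (by omega) (by omega)
    refine xcl ⟨z', z, by omega, by omega, ?_, m2.symm.mono subset_rfl ?_⟩ hR
    · rw [← hpz]; exact m2.parity.symm
    rintro v ⟨⟨-, hv⟩, hv'⟩
    simp only [Set.mem_ofPred_eq] at hv hv'
    rw [mem_rect]
    omega
  · obtain ⟨z', m1, m2, -⟩ := pconn_cut_first (fun v => v.2) row_inc h1.symm (R := Y1)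
      (by omega) (by omega)
    refine xcl' ⟨z, z', by omega, m1, hpz, m2.mono subset_rfl ?_⟩ hB
    rintro v ⟨⟨-, hv⟩, hv'⟩
    simp only [Set.mem_ofPred_eq] at hv hv'
    rw [mem_rect]
    omega
  · obtain ⟨z', m1, m2, -⟩ := pconn_cut_first (fun v => -v.2) (fun u v h => by
      have := h.2.1
      omega) h1.symm (R := -Y2) (by omega) (by omega)
    refine xcl' ⟨z', z, by omega, by omega, ?_, m2.symm.mono subset_rfl ?_⟩ hT
    · rw [← hpz]; exact m2.parity.symm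
    rintro v ⟨⟨-, hv⟩, hv'⟩
    simp only [Set.mem_ofPred_eq] at hv hv'
    rw [mem_rect]
    omega

/-- The circuit around the core. -/
def NbE (e : Bool) (b : ℤ × ℤ) (a : ℤ) : Set Cfg :=
  (Vc e (b.1 - a / 4 - a / 8) (b.1 - a / 4) (b.2 + 5 * a / 4 - a / 8) (b.2 + 7 * a / 4 + 1 + a / 8) ∩
    Vc e (b.1 + a / 4 + 1) (b.1 + a / 4 + 1 + a / 8) (b.2 + 5 * a / 4 - a / 8)
      (b.2 + 7 * a / 4 + 1 + a / 8)) ∩
  (Hc e (b.1 - a / 4 - a / 8) (b.1 + a / 4 + 1 + a / 8) (b.2 + 5 * a / 4 - a / 8) (b.2 + 5 * a / 4) ∩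
    Hc e (b.1 - a / 4 - a / 8) (b.1 + a / 4 + 1 + a / 8) (b.2 + 7 * a / 4 + 1)
      (b.2 + 7 * a / 4 + 1 + a / 8))

theorem inc_NbE (e : Bool) (b : ℤ × ℤ) (a : ℤ) : IncC e (NbE e b a) :=
  ((inc_Vc _ _ _ _ _).inter (inc_Vc _ _ _ _ _)).inter ((inc_Hc _ _ _ _ _).inter (inc_Hc _ _ _ _ _))

theorem loc_V {e : Bool} {a b p q : ℤ} {Z : Finset (ℤ × ℤ)} (hZ : ∀ v : ℤ × ℤ, a ≤ v.1 → v.1 < b →
    p ≤ v.2 → v.2 < q → v ∈ Z) {ω ω' : Cfg} (h : ∀ v ∈ Z, ω v = ω' v) (hω : ω ∈ Vc e a b p q) :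
    ω' ∈ Vc e a b p q := by
  obtain ⟨s, t, h1, h2, h3, h4⟩ := hω
  refine ⟨s, t, h1, h2, h3, congr_rect (fun v hv m1 m2 m3 m4 => ?_) h4⟩
  show ω' v = e
  rw [← h v (hZ v m1 m2 m3 m4)]
  exact hv

theorem loc_H {e : Bool} {a b p q : ℤ} {Z : Finset (ℤ × ℤ)} (hZ : ∀ v : ℤ × ℤ, a ≤ v.1 → v.1 < b →
    p ≤ v.2 → v.2 < q → v ∈ Z) {ω ω' : Cfg} (h : ∀ v ∈ Z, ω v = ω' v) (hω : ω ∈ Hc e a b p q) :
    ω' ∈ Hc e a b p q := by
  obtain ⟨s, t, h1, h2, h3, h4⟩ := hω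
  refine ⟨s, t, h1, h2, h3, congr_rect (fun v hv m1 m2 m3 m4 => ?_) h4⟩
  show ω' v = e
  rw [← h v (hZ v m1 m2 m3 m4)]
  exact hv

theorem pconn_of_pw {F G : Set Pt} (hF : F ⊆ G) {u v : Pt} (h : Pw F u v) : PConn G Set.univ u v := by
  induction h with
  | refl => exact PConn.refl trivial
  | @tail x y _ hxy ih => exact ih.tail ⟨hxy.1, hxy.2.1, hF hxy.2.2⟩ trivial

/-- **(NB)** -/
theorem s_NB {Q : ℝ} (hQ : 1 ≤ Q) (hR : RSW Q) : S_NB Q := by
  have hQ0 : 0 < Q := by linarith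
  obtain ⟨c, s0, hc, hc1, hs0, hrs⟩ := rs_fk hQ hR 8
  refine ⟨c * c * (c * c), 64 + 8 * s0, by positivity, by omega, fun e b a ha => ⟨NbE e b a,
    inc_NbE e b a, ?_, ?_, ?_⟩⟩
  · rintro ω ω' h ⟨⟨h1, h2⟩, h3, h4⟩
    refine ⟨⟨loc_V (fun v k1 k2 k3 k4 => ?_) h h1, loc_V (fun v k1 k2 k3 k4 => ?_) h h2⟩,
      loc_H (fun v k1 k2 k3 k4 => ?_) h h3, loc_H (fun v k1 k2 k3 k4 => ?_) h h4⟩ <;>
    · rw [mem_Zg]
      omega
  · intro D' η hη hZ
    have iV := fun a b p q => inc_Vc e a b p q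
    have iH := fun a b p q => inc_Hc e a b p q
    unfold NbE
    refine le_trans ?_ (prC_inter hQ hη ((iV _ _ _ _).inter (iV _ _ _ _))
      ((iH _ _ _ _).inter (iH _ _ _ _)))
    refine mul_le_mul ?_ ?_ (by positivity) (Pr_nonneg hQ0 _)
    · refine le_trans ?_ (prC_inter hQ hη (iV _ _ _ _) (iV _ _ _ _))
      refine mul_le_mul ?_ ?_ hc.le (Pr_nonneg hQ0 _)
      · refine (hrs e _ _ _ _ _ _ hη (by omega) (by omega)).2 (by omega) (by push_cast; omega)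
          fun v a1 a2 a3 a4 a5 => absurd (hZ ?_) a5
        rw [mem_Zg]
        omega
      · refine (hrs e _ _ _ _ _ _ hη (by omega) (by omega)).2 (by omega) (by push_cast; omega)
          fun v a1 a2 a3 a4 a5 => absurd (hZ ?_) a5
        rw [mem_Zg]
        omega
    · refine le_trans ?_ (prC_inter hQ hη (iH _ _ _ _) (iH _ _ _ _))
      refine mul_le_mul ?_ ?_ hc.le (Pr_nonneg hQ0 _)
      · refine (hrs e _ _ _ _ _ _ hη (by omega) (by omega)).1 (by omega) (by push_cast; omega)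
          fun v a1 a2 a3 a4 a5 => absurd (hZ ?_) a5
        rw [mem_Zg]
        omega
      · refine (hrs e _ _ _ _ _ _ hη (by omega) (by omega)).1 (by omega) (by push_cast; omega)
          fun v a1 a2 a3 a4 a5 => absurd (hZ ?_) a5
        rw [mem_Zg]
        omega
  · intro n q D l R hw hql hR4 ω hω A hA hlp hvz
    obtain ⟨hq, hD, hF, hl, h0⟩ := hw
    have hn : NeZero n := ⟨by omega⟩
    obtain ⟨e0, he0, he0c⟩ := hvz
    obtain ⟨x, y, hxy⟩ := exists_xy hq hD hA hlp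
    have hbe := hxy.2.2.1
    have hbd := be_bd hq hD (x : ZMod n)
    subst hql
    -- the core end
    have hs : (q l).1 - a / 4 ≤ (sc (!e) e0).1 ∧ (sc (!e) e0).1 ≤ (q l).1 + a / 4 + 1 ∧
        (q l).2 + 5 * a / 4 ≤ (sc (!e) e0).2 ∧ (sc (!e) e0).2 ≤ (q l).2 + 7 * a / 4 + 1 := by
      have k1 := sc_hdv (!e) e0
      have k2 := sc_tlv (!e) e0
      rw [mem_eds] at he0c
      simp only [cb, mem_product, mem_Icc] at he0c
      omega
    -- the far end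
    have ht : ∀ v : ℤ × ℤ, v ∉ D → ((sc (!e) (be q x)).1 = v.1 ∨ (sc (!e) (be q x)).1 = v.1 + 1) ∧
        ((sc (!e) (be q x)).2 = v.2 ∨ (sc (!e) (be q x)).2 = v.2 + 1) →
        (sc (!e) (be q x)).1 ≤ (q l).1 - a / 4 - a / 8 ∨
        (q l).1 + a / 4 + 1 + a / 8 ≤ (sc (!e) (be q x)).1 ∨
        (sc (!e) (be q x)).2 ≤ (q l).2 + 5 * a / 4 - a / 8 ∨
        (q l).2 + 7 * a / 4 + 1 + a / 8 ≤ (sc (!e) (be q x)).2 := by
      intro v hv hsc
      by_contra hcon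
      push Not at hcon
      exact hv ((hF v (by omega) (by omega) (by omega) (by omega)).2 (by omega))
    have ht' : (sc (!e) (be q x)).1 ≤ (q l).1 - a / 4 - a / 8 ∨
        (q l).1 + a / 4 + 1 + a / 8 ≤ (sc (!e) (be q x)).1 ∨
        (sc (!e) (be q x)).2 ≤ (q l).2 + 5 * a / 4 - a / 8 ∨
        (q l).2 + 7 * a / 4 + 1 + a / 8 ≤ (sc (!e) (be q x)).2 := by
      rcases hbd with ⟨-, h⟩ | ⟨-, h⟩
      · exact ht _ h (sc_tlv _ _)
      · exact ht _ h (sc_hdv _ _)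
    have hpath : PConn (cs (!e) ω) Set.univ (sc (!e) e0) (sc (!e) (be q x)) := by
      obtain ⟨k, hk | hk⟩ := run_of_mem hA he0 hbe
      · exact pconn_of_pw Set.inter_subset_left (run_sc (!e) hk)
      · exact (pconn_of_pw Set.inter_subset_left (run_sc (!e) hk)).symm
    obtain ⟨⟨h1, h2⟩, h3, h4⟩ := hω
    exact four (by omega : (1 : ℤ) ≤ a / 8) hpath (sc_par _ _) ⟨by omega, by omega, by omega, by omega⟩
      ht' h1 h2 h3 h4

end Vale.Agent.P167.H640.Nb
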