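import Vale.Agent.P167.H452.BE.Defs
import Vale.Agent.P167.H640.ND.Cls
import Vale.Agent.P167.QB.Circ
import Vale.Agent.P167.H192.TA.Arc2

/-!
# P167, general `q`, block BETA: planar topology (`S_T1`)
-/

namespace Vale.Agent.P167.H640.T1

open Finset Relation Vale.Agent.P167 Vale.Agent.P167.BR
open Vale.Agent.P145.FB (PStep)
open Vale.Agent.P167.QB (Ard sep_ard flat_side sgm ep sum_alt sgm_cases ep_cases ard_iff_of_eq shield
  novis stp_of ard_lp ard_xy)
open Vale.Agent.P167.QX (lo hi exists_xy lo_xy hi_xy)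
open Vale.Agent.P167.H718 (IsXY)
open Vale.Agent.P167.H436.ND
open Vale.Agent.P167.H640.ND (sep_zn mem_sites_Zg)
open Vale.Agent.P167.H192.TA (Xc Pw dq sr arc_full)
open Vale.Agent.P167.H632 (cs pr)
open Vale.Agent.P167.H452.BE

theorem s_T1 : S_T1 := by
  classical
  refine ⟨1, ?_⟩
  intro n q D l R hw a ha ω hSt r s R' hr hrs hsR hR'
  have hw' := hw
  obtain ⟨hq, hD, hF, hl, h0⟩ := hw
  obtain ⟨ha0, ha1, ha2, ha3⟩ := ha
  have hn : NeZero n := ⟨by omega⟩
  have hR : 1 ≤ R := by omega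
  obtain ⟨hr1, hr2⟩ := flat_range hq hD hF hR hl h0
  by_contra hcon
  push Not at hcon
  obtain ⟨hc1, hc2⟩ := hcon
  -- the dual half circuit
  obtain ⟨x1, y1, bx1, bx2, by1, by2, bp, hβ⟩ := arc_full (F := cs true ω) (b := q l) (r := r)
    (R := s) (e := 0) (Or.inl rfl) (by omega) hrs (fun y y' h1 h2 h3 h4 => by
      by_contra h5
      push Not at h5
      exact hc1 ⟨y, y', h1, h2, h3, h4, h5⟩)
  -- the primal half circuit
  obtain ⟨x2, y2, cx1, cx2, cy1, cy2, cp, hα⟩ := arc_full (F := cs false ω) (b := q l) (r := s)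
    (R := R') (e := 1) (Or.inr rfl) (by omega) hsR (fun y y' h1 h2 h3 h4 => by
      by_contra h5
      push Not at h5
      exact hc2 ⟨y, y', h1, h2, h3, h4, h5⟩)
  have hfs : ∀ i : ℕ, (l : ℤ) - R ≤ i → (i : ℤ) < l + R →
      q (i : ℕ) = ((q l).1 + ((i : ℤ) - l), (q l).2) := fun i k1 k2 =>
    (flat_side hq hD hF hR hl h0 k1 k2).1
  have hidx : ∀ x : ℤ, (q l).1 - R' ≤ x → x ≤ (q l).1 + R' → ∃ i : ℕ, (i : ℤ) = l + (x - (q l).1) ∧
      q (i : ℕ) = (x, (q l).2) ∧ i ≤ n := by
    intro x k1 k2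
    refine ⟨((l : ℤ) + (x - (q l).1)).toNat, by omega, ?_, by omega⟩
    rw [hfs _ (by omega) (by omega)]
    ext
    · simp only
      omega
    · rfl
  obtain ⟨w1', i1, e1, n1⟩ := hidx x1 (by omega) (by omega)
  obtain ⟨w2', i2, e2, n2⟩ := hidx y1 (by omega) (by omega)
  obtain ⟨w1, i3, e3, n3⟩ := hidx x2 (by omega) (by omega)
  obtain ⟨w2, i4, e4, n4⟩ := hidx y2 (by omega) (by omega)
  have hbD : ∀ ρ : ℤ, ρ ≤ R → hbox (q l) ρ ⊆ D := fun ρ h => hbox_sub (hF.mono h)
  -- the paths as steps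
  have hodd1 : ¬ Even ((q (w1' : ℕ)).1 + (q (w1' : ℕ)).2) := by
    rw [e1, Int.even_iff]
    simp only
    omega
  have heven1 : Even ((q (w1 : ℕ)).1 + (q (w1 : ℕ)).2) := by
    rw [e3, Int.even_iff]
    simp only
    omega
  have hβ' : ReflTransGen (Stp ω (D \ hbox (q l) r)) (q (w1' : ℕ)) (q (w2' : ℕ)) := by
    rw [e1, e2]
    rw [e1] at hodd1
    refine (stp_of (D := D \ hbox (q l) r) (fun v hv => ?_) hodd1 hβ).1
    obtain ⟨h1, h2⟩ := hv
    refine ⟨?_, ?_⟩
    · simpa [cs] using h1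
    · rw [mem_sdiff]
      simp only [dq, Set.mem_ofPred_eq] at h2
      refine ⟨hbD s (by omega) ?_, ?_⟩ <;> rw [mem_hbox] <;> omega
  have hα' : ReflTransGen (Stp ω (hbox (q l) R')) (q (w1 : ℕ)) (q (w2 : ℕ)) := by
    rw [e3, e4]
    refine (reach_iff (c := true) ?_).2 (ReflTransGen.mono (fun x y h => ⟨h.1, h.2.1, ?_⟩) _ _ hα)
    · show _ = (0 : ℤ)
      simp only
      omega
    · obtain ⟨-, -, h1, h2⟩ := h
      refine ⟨?_, ?_⟩
      · simpa [cs] using h1
      · simp only [dq, Set.mem_ofPred_eq] at h2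
        rw [mem_coe, mem_hbox]
        simp only
        omega
  have hβD : ReflTransGen (Stp ω D) (q (w1' : ℕ)) (q (w2' : ℕ)) := QB.stp_mono sdiff_subset hβ'
  have hαD : ReflTransGen (Stp ω D) (q (w1 : ℕ)) (q (w2 : ℕ)) :=
    QB.stp_mono (hbD R' (by omega)) hα'
  have hne : w1 ≠ w1' := by
    rintro rfl
    exact hodd1 heven1
  have hne2 : w2' ≠ w2 := by
    rintro rfl
    have k1 := hβ.parity
    have k2 := hα.parity
    simp only at k1 k2
    rw [e2] at e4
    have := congrArg Prod.fst e4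
    simp only at this
    omega
  -- the strands around the feet
  have hA1 : ∀ A ∈ pcs ω D, (Ard q w1' A ↔ Ard q w2' A) := by
    intro A hA
    obtain ⟨u, hu⟩ := exists_pot hq hD hA
    exact ard_iff_of_eq hq hD hA hu n1 n2 (pot_reach hA hu hβD)
  have hA2 : ∀ A ∈ pcs ω D, (Ard q w1 A ↔ Ard q w2 A) := by
    intro A hA
    obtain ⟨u, hu⟩ := exists_pot hq hD hA
    exact ard_iff_of_eq hq hD hA hu n3 n4 (pot_reach hA hu hαD)
  -- a strand with the sign `1`
  obtain ⟨A, hA, hg, ha1', ha2'⟩ : ∃ A ∈ pcs ω D, QB.sg q A = 1 ∧ Ard q w1' A ∧ ¬ Ard q w1 A := by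
    by_contra hno
    push Not at hno
    have s1 := sum_alt hq hD ω (w := w1') n1
    have s2 := sum_alt hq hD ω (w := w1) n3
    have hep : ep q w1 = 1 ∧ ep q w1' = -1 := by
      unfold ep
      rw [if_pos heven1, if_neg hodd1]
      exact ⟨rfl, rfl⟩
    have hsg : sgm q w1' - sgm q w1 = 1 := by
      have c1 := sgm_cases hq w1
      have c2 := sgm_cases hq w1'
      have c3 := ep_cases (q := q) 0
      omega
    have hle : ∑ A ∈ (pcs ω D).filter (Ard q w1'), QB.sg q A ≤
        ∑ A ∈ (pcs ω D).filter (Ard q w1), QB.sg q A := by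
      rw [sum_filter, sum_filter]
      refine sum_le_sum fun A hA => ?_
      by_cases a1 : Ard q w1' A <;> by_cases a2 : Ard q w1 A
      · rw [if_pos a1, if_pos a2]
      · rw [if_pos a1, if_neg a2]
        rcases ep_cases (q := q) (lo q A) with h5 | h5
        · exact absurd a1 (fun h => a2 (hno A hA h5 h))
        · show QB.sg q A ≤ 0
          unfold QB.sg
          omega
      · exfalso
        have h5 := (hA2 A hA).1 a2
        unfold Ard at a1 a2 h5
        omega
      · rw [if_neg a1, if_neg a2]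
    omega
  have ha3' := (hA1 A hA).1 ha1'
  have ha4' : ¬ Ard q w2 A := fun h => ha2' ((hA2 A hA).2 h)
  have hlo : w1 ≤ lo q A ∧ lo q A < w1' ∧ w2' ≤ hi q A ∧ hi q A < w2 := by
    unfold Ard at ha1' ha2' ha3' ha4'
    omega
  have hl' : ¬ IsLp D A := fun h => ard_lp hq hD hA h ha1'
  have hloA : be q (lo q A) ∈ A := by
    obtain ⟨x, y, h⟩ := exists_xy hq hD hA hl'
    rw [lo_xy hq hD hA h]
    rcases le_total x y with h6 | h6
    · rw [min_eq_left h6]; exact h.2.2.1
    · rw [min_eq_right h6]; exact h.2.2.2.1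
  have h0' : q 0 ∉ sites (hbox (q l) R') := fun h' => h0 (sites_mono (hbox_mono (by omega)) h')
  have hin := (shield hq hD (hF.mono (by omega)) (by omega) hl h0' (by omega) (by omega) hα' hA
    (i := lo q A) hlo.1 (by omega) hloA).2
  have hnv := novis hq hD hF hR hl h0 (r := r) (by omega) (by omega) (by omega) (by omega) n2 hβ' hA
    (i := lo q A) hlo.2.1 hloA
  have hVi : ∀ i : Fin 3, ¬ Vz (Zg (q l) (a i) (2 * a i)) A := by
    intro i
    have key : ∀ i : Fin 3, (i = 0 ∨ i = 1) → ¬ Vz (Zg (q l) (a i) (2 * a i)) A := by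
      rintro i hi ⟨e, he, heZ⟩
      refine hnv ⟨e, he, eds_mono (fun v hv => ?_) heZ⟩
      rw [mem_Zg] at hv
      rw [mem_hbox]
      rcases hi with rfl | rfl <;> omega
    fin_cases i
    · exact key 0 (Or.inl rfl)
    · exact key 1 (Or.inr rfl)
    · rintro ⟨e, he, heZ⟩
      have h5 := hin e he
      unfold Inn at h5
      simp only [Fin.reduceFinMk] at heZ
      rw [mem_eds, mem_Zg, mem_Zg] at heZ
      rw [mem_hbox, mem_hbox] at h5
      omega
  have hVU : ¬ Vz (UU (q l) a 0) A := by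
    rintro ⟨e, he, heZ⟩
    rw [mem_eds] at heZ
    unfold UU at heZ
    simp only [mem_biUnion, mem_univ, true_and, rh_zero, sg_zero] at heZ
    rcases heZ with ⟨i, hi⟩ | ⟨i, hi⟩
    · exact hVi i ⟨e, he, mem_eds.2 (Or.inl hi)⟩
    · exact hVi i ⟨e, he, mem_eds.2 (Or.inr hi)⟩
  have hsep : ∀ i : Fin 3, Sep D A (zf (q l) a i) (q 0) ↔
      ((lo q A : ℤ) < l - a i ∧ (l : ℤ) + a i ≤ hi q A) := by
    intro i
    have k0 : 1 ≤ a i ∧ 2 * a i ≤ R := by fin_cases i <;> simp only [Fin.reduceFinMk, Fin.zero_eta,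
      Fin.mk_one] <;> omega
    refine sep_zn hw' k0.1 (by omega) k0.2 hA (hVi i) ?_
    rw [mem_sites_Zg (by omega) (by omega)]
    unfold zf
    simp only
    omega
  have hcl : clz q D (zf (q l) a) A = 2 := by
    unfold clz
    have : (univ.filter fun i : Fin 3 => Sep D A (zf (q l) a i) (q 0)) = {0, 1} := by
      ext i
      rw [mem_filter, hsep]
      fin_cases i
      · simp only [Fin.zero_eta, mem_univ, true_and, mem_insert, true_or, iff_true]
        omega
      · simp only [Fin.mk_one, mem_univ, true_and, mem_insert, mem_singleton, or_true, iff_true]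
        omega
      · simp only [Fin.reduceFinMk, mem_univ, true_and]
        constructor
        · rintro ⟨k1, k2⟩
          omega
        · intro h
          simp at h
    rw [this]
    rfl
  have := hSt A hA hVU hcl
  omega

end Vale.Agent.P167.H640.T1
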