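import Vale.Agent.P167.QB.SgDefs
import Vale.Agent.P167.H469.BArm

/-!
# P167, general `q`, block BRQ: the probability estimate `S_pev`
-/

namespace Vale.Agent.P167.H640.Pev

open Finset Relation Vale.Agent.P167 Vale.Agent.P167.BR Vale.Agent.P167.FK Vale.Agent.P167.FKA
open Vale.Agent.P167.QM (HB mem_HB)
open Vale.Agent.P145.FB (PStep)
open Vale.Agent.P167.QB (ha HArm harm_congr DAr Wa Geo2 S_har S_glu S_pev Evs)
open Vale.Agent.P167.H632 (IncC cs pr nm_le le_nm cs_compl)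
open Vale.Agent.P167.H704.Q (prC_inter)
open Vale.Agent.P167.H192.TA (Xc Pw dq sr dF mem_dF)
open Vale.Agent.P167.H192.Q (SRSW pX pX_anti ex_Xc_le Xc_restrict loc_Xc pX_dec)
open Vale.Agent.P167.H469 (hx inc_Xc Cn cn_HB Ks exists_Ks FlF A7)
open Vale.Agent.P167.H562.QM (FltQ)
open Vale.Agent.P167.H259 (f_markov)

variable {Q : ℝ} {D : Finset (ℤ × ℤ)} {η : Cfg} {b : ℤ × ℤ} {r s R N a0 a1 s' ρ : ℤ}
  {W : Set (ℤ × ℤ)} {θ : ℝ}

theorem pr_split (A B : Set Cfg) :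
    Pr Q D η A = Pr Q D η (A ∩ B) + Pr Q D η (A ∩ Bᶜ) := by
  unfold Pr
  rw [← Ex_add]
  refine Ex_congr fun S _ => ?_
  rw [ind_inter, ind_inter, ind_compl]
  ring

/-- Events of opposite monotonicity. -/
theorem prC_opp (hQ : 1 ≤ Q) (hη : Good η) {A B : Set Cfg} (hA : IncC true A) (hB : IncC false B) :
    Pr Q D η (A ∩ B) ≤ Pr Q D η A * Pr Q D η B := by
  have hQ0 : 0 < Q := by linarith
  have hB' : IncC true Bᶜ := hB.compl
  have h1 := prC_inter (D := D) hQ hη hA hB'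
  have h2 := pr_split (Q := Q) (D := D) (η := η) A B
  rw [Pr_compl hQ0] at h1
  linarith

theorem inc_harm : IncC true {ω | HArm b r R ω} := by
  rintro ω ω' h ⟨u, v, h1, h2, h3, h4⟩
  refine ⟨u, v, h1, h2, h3, ReflTransGen.mono (fun x y h5 => ⟨h5.1, h5.2.1, ?_⟩) _ _ h4⟩
  obtain ⟨-, -, a1, a2, a3⟩ := h5
  exact ⟨a1, a2, h _ a3⟩

theorem inc_dar : IncC false (DAr D W b r) := by
  rintro ω ω' h ⟨u, hu, v, hv, h1, h2⟩
  refine ⟨u, hu, v, hv, h1, ReflTransGen.mono (fun x y h5 => ⟨h5.1, h5.2.1, ?_⟩) _ _ h2⟩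
  obtain ⟨-, -, a1, a2⟩ := h5
  exact ⟨h _ a1, a2⟩

theorem mem_bq {x v : ℤ × ℤ} : v ∈ Bq x R ↔
    (x.1 - R ≤ v.1 ∧ v.1 < x.1 + R) ∧ x.2 - R ≤ v.2 ∧ v.2 < x.2 + R := by
  simp only [Bq, Finset.mem_product, Finset.mem_Ico]

theorem hb_eq : HB b N = hbox b N := by
  ext v
  rw [mem_HB, mem_hbox, mem_bq]
  constructor
  · rintro ⟨h1, h2⟩
    omega
  · intro h
    omega

/-- The increasing part. -/
theorem part_I (hQ : 1 ≤ Q) (h0 : 1 ≤ a0) (hD : dF b (3 * a0) (a1 / 2) ⊆ D) (hη : Good η)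
    (ha1 : 0 ≤ a1) :
    Pr Q D η (Xc true b (3 * a0) (a1 / 2) ∩ {ω | 8 * a1 ≤ s → HArm b (4 * a1) s ω}) ≤
      pX Q true b (3 * a0) (a1 / 2) * Pr Q D η {ω | 8 * a1 ≤ s → HArm b (4 * a1) s ω} := by
  have hG : Ind (dF b (3 * a0) (a1 / 2))
      (({ω | 8 * a1 ≤ s → HArm b (4 * a1) s ω} : Set Cfg).indicator (1 : Cfg → ℝ)) := by
    intro ω ω' h
    have h1 : HArm b (4 * a1) s ω ↔ HArm b (4 * a1) s ω' := by
      refine harm_congr fun v hv hv' => h v fun h2 => ?_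
      rw [mem_dF] at h2
      simp only [dq, Set.mem_ofPred_eq] at h2
      rw [mem_hbox] at hv'
      omega
    have h2 : (ω ∈ ({ω | 8 * a1 ≤ s → HArm b (4 * a1) s ω} : Set Cfg)) ↔
        (ω' ∈ ({ω | 8 * a1 ≤ s → HArm b (4 * a1) s ω} : Set Cfg)) := by
      simp only [Set.mem_ofPred_eq, h1]
    by_cases h3 : ω ∈ ({ω | 8 * a1 ≤ s → HArm b (4 * a1) s ω} : Set Cfg)
    · rw [Set.indicator_of_mem h3, Set.indicator_of_mem (h2.1 h3)]
      rfl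
    · rw [Set.indicator_of_notMem h3, Set.indicator_of_notMem fun h4 => h3 (h2.2 h4)]
  have := ex_Xc_le (c := true) (b := b) (r := 3 * a0) (R := a1 / 2) hQ (by omega) hD hη
    (fun ω => ind_nonneg _ ω) hG
  refine le_trans (le_of_eq ?_) this
  unfold Pr
  refine Ex_congr fun S _ => ?_
  rw [ind_inter, mul_comm]

/-- The decreasing part. -/
theorem part_F (hQ : 1 ≤ Q) {C7 : ℝ} {K7 : ℤ} (hK7 : 1 ≤ K7)
    (h7 : ∀ (e : Bool) (b : ℤ × ℤ) (r R N : ℤ) (D : Finset (ℤ × ℤ)) (η : Cfg), 1 ≤ r → r ≤ R →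
      K7 * R ≤ N → Good η → FlF D η b (K7 * R) →
      Pr Q D η (Xc e b r R) ≤ C7 * hx Q e b r R N ∧ hx Q e b r R N ≤ C7 * Pr Q D η (Xc e b r R))
    {Rd : ℤ} (hF : FltQ D η b Rd false false) (hη : Good η) (h0 : 1 ≤ a0) (h1 : 3 * a0 ≤ ρ)
    (h2 : K7 * ρ ≤ a1) (h3 : a1 ≤ s') (h4 : 2 * a1 ≤ Rd) (h5 : K7 * ρ ≤ N) :
    Pr Q D η (Xc false b (3 * a0) ρ ∩ DAr D W b s') ≤
      C7 * hx Q false b (3 * a0) ρ N * Pr Q D η (DAr D W b s') := by
  have hQ0 : 0 < Q := by linarith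
  have hρ : ρ ≤ K7 * ρ := by nlinarith
  have hA : hbox b a1 ⊆ D := by
    intro v hv
    rw [mem_hbox] at hv
    refine (hF.dom v ?_).2 hv.2.2.1
    rw [nm_le]
    simp only [Prod.fst_sub, Prod.snd_sub]
    omega
  have hG : Ind (hbox b a1) ((DAr D W b s').indicator (1 : Cfg → ℝ)) := by
    intro ω ω' h
    have h2 : ω ∈ DAr D W b s' ↔ ω' ∈ DAr D W b s' := by
      unfold DAr
      simp only [Set.mem_ofPred_eq]
      have e : cs false ω ∩ (↑(D \ hbox b s') : Set (ℤ × ℤ)) = cs false ω' ∩ ↑(D \ hbox b s') := by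
        ext v
        simp only [cs, Set.mem_inter_iff, Set.mem_ofPred_eq, mem_coe, mem_sdiff]
        refine and_congr_left fun hv => ?_
        rw [h v fun h' => hv.2 (hbox_mono h3 h')]
      unfold Jn
      rw [e]
    by_cases h3 : ω ∈ DAr D W b s'
    · rw [Set.indicator_of_mem h3, Set.indicator_of_mem (h2.1 h3)]
      rfl
    · rw [Set.indicator_of_notMem h3, Set.indicator_of_notMem fun h4 => h3 (h2.2 h4)]
  have e1 : Pr Q D η (Xc false b (3 * a0) ρ ∩ DAr D W b s') = Ex Q D η (fun ω =>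
      (DAr D W b s').indicator 1 ω * (Xc false b (3 * a0) ρ).indicator 1 ω) := by
    unfold Pr
    refine Ex_congr fun S _ => ?_
    rw [ind_inter, mul_comm]
  rw [e1, markov f_markov hQ0 hA hη hG]
  unfold Pr
  rw [← Ex_mul_left]
  refine Ex_mono hQ0 fun S _ => ?_
  rw [mul_comm (C7 * _)]
  refine mul_le_mul_of_nonneg_left ?_ (ind_nonneg _ _)
  refine (h7 false b (3 * a0) ρ N (hbox b a1) (cf D η S) (by omega) h1 h5 (f_good.1 D η S hη)
    ⟨fun v hv => ?_, fun v hv hvA => ?_⟩).1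
  · rw [mem_bq] at hv
    rw [mem_hbox]
    omega
  · rw [mem_bq] at hv
    rw [mem_hbox] at hvA
    have hn : nm (v - b) ≤ Rd := by
      rw [nm_le]
      simp only [Prod.fst_sub, Prod.snd_sub]
      omega
    have hv2 : v.2 < b.2 := by omega
    have hvD : v ∉ D := fun h' => by
      have := (hF.dom v hn).1 h'
      omega
    rw [cf_out hvD, hF.out v hn hv2]
    split_ifs <;> rfl


/-- The power with the factor for small ratios. -/
theorem pow_fac {α x C : ℝ} (hα : 0 < α) (hx : 1 / 2 ≤ x) : 1 ≤ max C (8 ^ α) * x ^ α := by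
  have g5 : (1 / 2 : ℝ) ^ α ≤ x ^ α := Real.rpow_le_rpow (by norm_num) hx hα.le
  have g6 : (1 : ℝ) ≤ 8 ^ α * (1 / 2 : ℝ) ^ α := by
    rw [← Real.mul_rpow (by norm_num) (by norm_num)]
    exact Real.one_le_rpow (by norm_num) hα.le
  have g7 : (8 : ℝ) ^ α ≤ max C (8 ^ α) := le_max_right _ _
  have g8 : (0 : ℝ) < 8 ^ α := by positivity
  calc (1 : ℝ) ≤ 8 ^ α * (1 / 2 : ℝ) ^ α := g6
    _ ≤ max C (8 ^ α) * x ^ α := mul_le_mul g7 g5 (by positivity) (by positivity)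

/-- Gluing with a dual arm of bounded ratio. -/
theorem glu_step (hQ : 1 ≤ 2 * Real.cos θ) (C : Ks (2 * Real.cos θ)) (hg : S_glu θ) :
    ∃ (c : ℝ) (K s₀ : ℤ), 0 < c ∧ 1 ≤ K ∧ 1 ≤ s₀ ∧
    ∀ (n : ℕ) (q : ZMod n → ℤ × ℤ) (D : Finset (ℤ × ℤ)) (η : Cfg) (k l m : ℕ)
      (Rc Rd : ℤ), Geo2 q D η k l m Rc Rd → ∀ r R : ℤ, s₀ ≤ r → r ≤ R → R ≤ 4 * r →
      K * R ≤ Rd → Pr (2 * Real.cos θ) D η (DAr D (Wa q k l) (q m) R) ≤
        c * Pr (2 * Real.cos θ) D η (DAr D (Wa q k l) (q m) r) := by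
  have hQ0 : 0 < 2 * Real.cos θ := by linarith
  obtain ⟨Cg, Kgl, sg, hCg, hKgl, hsg, hglu⟩ := hg
  obtain ⟨cc, sc, hcc, hcc1, hsc, hcross⟩ := C.cross 4
  refine ⟨Cg / cc, Kgl, max sg sc, by positivity, hKgl, hsg.trans (le_max_left _ _), ?_⟩
  intro n q D η k l m Rc Rd G r R h1 h2 h3 h4
  have h5 := hglu n q D η k l m Rc Rd (max (Kgl * R) (2 * R)) G r R ((le_max_left _ _).trans h1) h2
    h4 (le_max_left _ _)
  have h6 := hcross false (q m) r R (hbox (q m) (max (Kgl * R) (2 * R))) eta0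
    ((le_max_right _ _).trans h1) h2 (by exact_mod_cast h3) f_good.2.1
    (by rw [← hb_eq]; exact cn_HB (le_max_right _ _))
  have h7 : 0 ≤ Pr (2 * Real.cos θ) D η (DAr D (Wa q k l) (q m) R) := Pr_nonneg hQ0 _
  rw [div_mul_eq_mul_div, le_div_iff₀ hcc]
  calc _ = cc * Pr (2 * Real.cos θ) D η (DAr D (Wa q k l) (q m) R) := mul_comm _ _
    _ ≤ _ := mul_le_mul_of_nonneg_right h6 h7
    _ ≤ _ := h5

/-- The arm. -/
theorem arm_step (hQ : 1 ≤ 2 * Real.cos θ) (C : Ks (2 * Real.cos θ)) (hh : S_har θ)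
    (hg : S_glu θ) : ∃ (α c : ℝ) (K s₀ : ℤ), 0 < α ∧ 0 < c ∧ 1 ≤ K ∧ 1 ≤ s₀ ∧ ∀ β : ℝ, 0 < β →
    β ≤ α → ∀ (n : ℕ) (q : ZMod n → ℤ × ℤ) (D : Finset (ℤ × ℤ)) (η : Cfg) (k l m : ℕ)
      (Rc Rd : ℤ), Geo2 q D η k l m Rc Rd → ∀ a1 s s' : ℤ, s₀ ≤ a1 → 4 * a1 ≤ s → s ≤ s' →
      s' ≤ 2 * s → K * s' ≤ Rd →
      Pr (2 * Real.cos θ) D η {ω | 8 * a1 ≤ s → HArm (q m) (4 * a1) s ω} *
      Pr (2 * Real.cos θ) D η (DAr D (Wa q k l) (q m) s') ≤
      max c (8 ^ β) * c * ((4 * a1 : ℝ) / s) ^ β *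
        Pr (2 * Real.cos θ) D η (DAr D (Wa q k l) (q m) (4 * a1)) := by
  have hQ0 : 0 < 2 * Real.cos θ := by linarith
  obtain ⟨αh, Ch, Kh, sh, hαh, hCh, hKh, hsh, hhar⟩ := hh
  obtain ⟨cg, Kg, sg, hcg, hKg, hsg, hstep⟩ := glu_step hQ C hg
  refine ⟨αh, max Ch cg, max Kh Kg, max sh sg, hαh, lt_max_of_lt_left hCh,
    hKh.trans (le_max_left _ _), hsh.trans (le_max_left _ _), ?_⟩
  intro β hβ hβα n q D η k l m Rc Rd G a1 s s' h2 h3 h4 h5 h6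
  have b1 : sh ≤ a1 := (le_max_left _ _).trans h2
  have b2 : sg ≤ a1 := (le_max_right _ _).trans h2
  have b3 : 1 ≤ a1 := hsh.trans b1
  have b4 : Kh * s' ≤ Rd := (mul_le_mul_of_nonneg_right (le_max_left _ _) (by omega)).trans h6
  have b5 : Kg * s' ≤ Rd := (mul_le_mul_of_nonneg_right (le_max_right _ _) (by omega)).trans h6
  have b6 : Kh * s ≤ Kh * s' := mul_le_mul_of_nonneg_left h4 (by omega)
  have hp0 : 0 ≤ Pr (2 * Real.cos θ) D η (DAr D (Wa q k l) (q m) (4 * a1)) := Pr_nonneg hQ0 _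
  have ha1R : (0 : ℝ) < a1 := by exact_mod_cast (by omega : 0 < a1)
  have hsR : (0 : ℝ) < s := by exact_mod_cast (by omega : 0 < s)
  have hx0 : 0 < (4 * a1 : ℝ) / s := by positivity
  set c := max Ch cg with hc
  have hc1 : Ch ≤ c := le_max_left _ _
  have hc2 : cg ≤ c := le_max_right _ _
  have hc0 : 0 < c := lt_of_lt_of_le hCh hc1
  set x := ((4 * a1 : ℝ) / s) ^ β with hx
  have hxp : 0 ≤ x := by positivity
  set M := max c (8 ^ β) with hM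
  have hMc : c ≤ M := le_max_left _ _
  by_cases h8 : 8 * a1 ≤ s
  · have g1 := hstep n q D η k l m Rc Rd G s s' (by omega) h4 (by omega) b5
    have g2 := hhar n q D η k l m Rc Rd G (4 * a1) s (by omega) h3 (b6.trans b4)
    have g3 : {ω | 8 * a1 ≤ s → HArm (q m) (4 * a1) s ω} = {ω | HArm (q m) (4 * a1) s ω} := by
      ext ω
      simp only [Set.mem_ofPred_eq, h8, true_imp_iff]
    rw [g3]
    have g4 : 0 ≤ Pr (2 * Real.cos θ) D η {ω | HArm (q m) (4 * a1) s ω} := Pr_nonneg hQ0 _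
    have g6 : 0 ≤ Pr (2 * Real.cos θ) D η (DAr D (Wa q k l) (q m) s) := Pr_nonneg hQ0 _
    push_cast at g2
    have hx1 : (4 * a1 : ℝ) / s ≤ 1 := by
      rw [div_le_one hsR]
      exact_mod_cast h3
    have g5 : ((4 * a1 : ℝ) / s) ^ αh ≤ x :=
      Real.rpow_le_rpow_of_exponent_ge hx0 hx1 hβα
    calc _ ≤ Pr (2 * Real.cos θ) D η {ω | HArm (q m) (4 * a1) s ω} *
          (cg * Pr (2 * Real.cos θ) D η (DAr D (Wa q k l) (q m) s)) :=
        mul_le_mul_of_nonneg_left g1 g4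
      _ ≤ Pr (2 * Real.cos θ) D η {ω | HArm (q m) (4 * a1) s ω} *
          (c * Pr (2 * Real.cos θ) D η (DAr D (Wa q k l) (q m) s)) :=
        mul_le_mul_of_nonneg_left (mul_le_mul_of_nonneg_right hc2 g6) g4
      _ = c * (Pr (2 * Real.cos θ) D η {ω | HArm (q m) (4 * a1) s ω} *
          Pr (2 * Real.cos θ) D η (DAr D (Wa q k l) (q m) s)) := by ring
      _ ≤ c * (Ch * ((4 * a1 : ℝ) / s) ^ αh *
          Pr (2 * Real.cos θ) D η (DAr D (Wa q k l) (q m) (4 * a1))) :=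
        mul_le_mul_of_nonneg_left g2 hc0.le
      _ ≤ c * (M * x * Pr (2 * Real.cos θ) D η (DAr D (Wa q k l) (q m) (4 * a1))) := by
        refine mul_le_mul_of_nonneg_left (mul_le_mul_of_nonneg_right ?_ hp0) hc0.le
        exact mul_le_mul (hc1.trans hMc) g5 (by positivity) (hc0.le.trans hMc)
      _ = _ := by ring
  · have g1 := hstep n q D η k l m Rc Rd G (4 * a1) s' (by omega) (by omega) (by omega) b5
    have g2 : Pr (2 * Real.cos θ) D η {ω | 8 * a1 ≤ s → HArm (q m) (4 * a1) s ω} ≤ 1 :=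
      Pr_le_one hQ0 _
    have g3 : 1 ≤ M * x := by
      refine pow_fac hβ ?_
      rw [le_div_iff₀ hsR]
      have : (s : ℝ) ≤ 8 * a1 := by exact_mod_cast (by omega : s ≤ 8 * a1)
      linarith
    have g9 : 0 ≤ Pr (2 * Real.cos θ) D η (DAr D (Wa q k l) (q m) s') := Pr_nonneg hQ0 _
    calc _ ≤ 1 * Pr (2 * Real.cos θ) D η (DAr D (Wa q k l) (q m) s') :=
        mul_le_mul_of_nonneg_right g2 g9
      _ ≤ 1 * (cg * Pr (2 * Real.cos θ) D η (DAr D (Wa q k l) (q m) (4 * a1))) :=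
        mul_le_mul_of_nonneg_left g1 zero_le_one
      _ ≤ 1 * (c * Pr (2 * Real.cos θ) D η (DAr D (Wa q k l) (q m) (4 * a1))) :=
        mul_le_mul_of_nonneg_left (mul_le_mul_of_nonneg_right hc2 hp0) zero_le_one
      _ ≤ (M * x) * (c * Pr (2 * Real.cos θ) D η (DAr D (Wa q k l) (q m) (4 * a1))) :=
        mul_le_mul_of_nonneg_right g3 (mul_nonneg hc0.le hp0)
      _ = _ := by ring

theorem ratio_le {α C : ℝ} (hα : 0 < α) (hC : 0 < C) {p : ℝ} {a0 a1 : ℤ} (h0 : 1 ≤ a0) (h1 : 8 * a0 ≤ a1)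
    (hp : p ≤ C * (((3 * a0 : ℤ) : ℝ) / ((a1 / 2 : ℤ) : ℝ)) ^ α) :
    p ≤ C * 12 ^ α * ((a0 : ℝ) / a1) ^ α := by
  have e1 : (0 : ℝ) < a0 := by exact_mod_cast (by omega : 0 < a0)
  have e2 : (0 : ℝ) < a1 := by exact_mod_cast (by omega : 0 < a1)
  have e3 : (a1 : ℝ) / 4 ≤ ((a1 / 2 : ℤ) : ℝ) := by
    have : (a1 : ℝ) ≤ 4 * ((a1 / 2 : ℤ) : ℝ) := by exact_mod_cast (by omega : a1 ≤ 4 * (a1 / 2))
    linarith
  refine hp.trans ?_
  have e5 : (0 : ℝ) ≤ (a0 : ℝ) / a1 := by positivity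
  rw [mul_assoc, ← Real.mul_rpow (by norm_num) e5]
  have e6 : (0 : ℝ) ≤ ((3 * a0 : ℤ) : ℝ) / ((a1 / 2 : ℤ) : ℝ) :=
    div_nonneg (by push_cast; positivity) (by linarith)
  refine mul_le_mul_of_nonneg_left (Real.rpow_le_rpow e6 ?_ hα.le) hC.le
  rw [div_le_iff₀ (by linarith)]
  push_cast
  have e4 : (12 * (a0 / a1) * (a1 / 4) : ℝ) = 3 * a0 := by
    field_simp
    norm_num
  calc (3 * a0 : ℝ) = 12 * (a0 / a1) * (a1 / 4) := e4.symm
    _ ≤ 12 * (a0 / a1) * ((a1 / 2 : ℤ) : ℝ) := mul_le_mul_of_nonneg_left e3 (by positivity)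

theorem s_pev (h0t : 0 < θ) (h1t : θ ≤ Real.pi / 3) (hR : RSW (2 * Real.cos θ))
    (hS : SRSW (2 * Real.cos θ)) (hh : S_har θ) (hg : S_glu θ) : S_pev θ := by
  have hpi := Real.pi_pos
  have hcos : 1 / 2 ≤ Real.cos θ := by
    rw [← Real.cos_pi_div_three]
    exact Real.cos_le_cos_of_nonneg_of_le_pi h0t.le (by linarith) h1t
  have hQ : 1 ≤ 2 * Real.cos θ := by linarith
  have hQ0 : 0 < 2 * Real.cos θ := by linarith
  obtain ⟨C⟩ := exists_Ks hQ hR hS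
  obtain ⟨C7, K7, hC7, hK7, h7⟩ := C.a7
  obtain ⟨αx, Cx, hαx, hCx, hpx⟩ := pX_dec hQ hS
  obtain ⟨αh, ch, Kh, sh, hαh, hch, hKh, hsh, harm⟩ := arm_step hQ C hh hg
  obtain ⟨Cg, Kgl, sg, hCg, hKgl, hsg, hglu⟩ := hg
  obtain ⟨ce, se, hce, hse, hext⟩ := C.ext_out (M := 16 * K7) (by omega)
  obtain ⟨α, hα, hαx', hαh'⟩ : ∃ α : ℝ, 0 < α ∧ α ≤ αx ∧ α ≤ αh :=
    ⟨min αx αh, lt_min hαx hαh, min_le_left _ _, min_le_right _ _⟩
  refine ⟨α, Cx * 12 ^ αx * (C7 * (1 / ce)) * (max ch (8 ^ α) * ch * 4 ^ α) * Cg,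
    8 * K7 + 8 + Kh + 4 * Kgl, max (max sg sh) (max se 1), hα, ?_, by omega,
    by omega, ?_⟩
  · have hM0 : 0 < max ch (8 ^ α) := lt_max_of_lt_left hch
    positivity
  intro n q D η k l m Rc Rd G a0 a1 s s' h1 h2 h3 h4 h5 h6
  have b1 : sg ≤ a0 := ((le_max_left _ _).trans (le_max_left _ _)).trans h1
  have b3 : sh ≤ a0 := ((le_max_right _ _).trans (le_max_left _ _)).trans h1
  have b4 : se ≤ a0 := ((le_max_left _ _).trans (le_max_right _ _)).trans h1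
  have b5 : 1 ≤ a0 := ((le_max_right _ _).trans (le_max_right _ _)).trans h1
  clear h1
  have e6 : a0 ≤ K7 * a0 := by nlinarith
  have e0 : 0 ≤ (Kh + 4 * Kgl) * a0 := mul_nonneg (by omega) (by omega)
  have e1 : 8 * (K7 * a0) + 8 * a0 ≤ a1 := by linarith
  have e2 : 1 ≤ s' := by linarith
  have e7 : 0 ≤ K7 * s' := mul_nonneg (by omega) (by omega)
  have e8 : 0 ≤ Kh * s' := mul_nonneg (by omega) (by omega)
  have e9 : 0 ≤ Kgl * s' := mul_nonneg (by omega) (by omega)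
  have e3 : 8 * s' ≤ Rd := by linarith
  have e4 : Kh * s' ≤ Rd := by linarith
  have e5 : 4 * (Kgl * s') ≤ Rd := by linarith
  obtain ⟨ρ, hρ1, hρ4, hρ5, hρ6⟩ : ∃ ρ : ℤ, 4 * a0 ≤ ρ ∧ K7 * ρ ≤ a1 ∧ ρ ≤ a1 / 2 ∧
      4 * a1 ≤ 16 * K7 * ρ := by
    have hρ1 : 4 * a0 ≤ a1 / (2 * K7) := by
      rw [Int.le_ediv_iff_mul_le (by omega)]
      linarith
    have hρ2 : a1 / (2 * K7) * (2 * K7) ≤ a1 := Int.ediv_mul_le _ (by omega)
    have hρ3 : a1 < (a1 / (2 * K7) + 1) * (2 * K7) := Int.lt_ediv_add_one_mul_self _ (by omega)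
    generalize a1 / (2 * K7) = ρ at *
    have hρ0 : 0 ≤ ρ := by omega
    have hρ7 : K7 ≤ K7 * ρ := by nlinarith
    have hρ8 : ρ ≤ K7 * ρ := by nlinarith
    refine ⟨ρ, hρ1, by linarith, ?_, by linarith⟩
    rw [Int.le_ediv_iff_mul_le (by norm_num)]
    linarith
  have e10 : 0 ≤ Kgl * a1 := mul_nonneg (by omega) (by omega)
  have e11 : 4 * (Kgl * a1) ≤ 4 * (Kgl * s') := by nlinarith
  have e12 : s' ≤ Rd := by linarith
  have hdom : ∀ v : ℤ × ℤ, v ∈ hbox (q m) s' → v ∈ D := by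
    intro v hv
    rw [mem_hbox] at hv
    refine (G.fd.dom v ?_).2 hv.2.2.1
    rw [nm_le]
    simp only [Prod.fst_sub, Prod.snd_sub]
    omega
  have hsub : Evs q D k l m a0 a1 s s' ⊆
      (Xc true (q m) (3 * a0) (a1 / 2) ∩ {ω | 8 * a1 ≤ s → HArm (q m) (4 * a1) s ω}) ∩
        (Xc false (q m) (3 * a0) ρ ∩ DAr D (Wa q k l) (q m) s') := by
    rintro ω ⟨g1, g2, g3, g4⟩
    exact ⟨⟨g1, g3⟩, Xc_restrict le_rfl (by omega) hρ5 g2, g4⟩
  have hincI : IncC true (Xc true (q m) (3 * a0) (a1 / 2) ∩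
      {ω | 8 * a1 ≤ s → HArm (q m) (4 * a1) s ω}) :=
    (inc_Xc true _ _ _).inter fun ω ω' h hω h8 => inc_harm ω ω' h (hω h8)
  have hincF : IncC false (Xc false (q m) (3 * a0) ρ ∩ DAr D (Wa q k l) (q m) s') :=
    (inc_Xc false _ _ _).inter inc_dar
  have k1 : Pr (2 * Real.cos θ) D η (Evs q D k l m a0 a1 s s') ≤
      Pr (2 * Real.cos θ) D η (Xc true (q m) (3 * a0) (a1 / 2) ∩
        {ω | 8 * a1 ≤ s → HArm (q m) (4 * a1) s ω}) *
      Pr (2 * Real.cos θ) D η (Xc false (q m) (3 * a0) ρ ∩ DAr D (Wa q k l) (q m) s') :=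
    (Pr_mono hQ0 hsub).trans (prC_opp hQ G.good hincI hincF)
  have k2 := part_I (b := q m) (s := s) (D := D) hQ b5 (a1 := a1) (fun v hv => hdom v (by
    rw [mem_dF] at hv
    simp only [dq, Set.mem_ofPred_eq] at hv
    rw [mem_hbox]
    omega)) G.good (by omega)
  obtain ⟨N, n1, n2, n3⟩ : ∃ N : ℤ, K7 * ρ ≤ N ∧ 8 * a1 ≤ N ∧ 4 * (Kgl * a1) ≤ N :=
    ⟨max (K7 * ρ) (max (8 * a1) (4 * (Kgl * a1))), le_max_left _ _,
      (le_max_left _ _).trans (le_max_right _ _), (le_max_right _ _).trans (le_max_right _ _)⟩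
  have k3 := part_F (W := Wa q k l) hQ hK7 h7 G.fd G.good b5 (ρ := ρ) (by omega) hρ4
    (s' := s') (by omega) (by omega) (N := N) n1
  have k4 : hx (2 * Real.cos θ) false (q m) (3 * a0) ρ N ≤
      hx (2 * Real.cos θ) false (q m) (4 * a0) ρ N :=
    Pr_mono hQ0 (Xc_restrict (by omega) hρ1 le_rfl)
  have k5 := hext false (q m) (4 * a0) ρ (4 * a1) (HB (q m) N) eta0 (by omega) hρ1 (by omega)
    hρ6 f_good.2.1 (cn_HB (by omega))
  have k6 := hglu n q D η k l m Rc Rd N G (4 * a0) (4 * a1) (by omega) (by omega) (by linarith)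
    (by linarith)
  rw [← hb_eq] at k6
  have k7 := harm α hα hαh' n q D η k l m Rc Rd G a1 s s' (by omega) h3 h4 h5 e4
  have k8 := hpx true (q m) (3 * a0) (a1 / 2) (by omega) (by omega)
  have k9 := ratio_le hαx hCx b5 (by omega) k8
  -- real numbers
  have a0R : (0 : ℝ) < a0 := by exact_mod_cast (by omega : 0 < a0)
  have a1R : (0 : ℝ) < a1 := by exact_mod_cast (by omega : 0 < a1)
  have sR : (0 : ℝ) < s := by exact_mod_cast (by omega : 0 < s)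
  have hra : (a0 : ℝ) / a1 ≤ 1 := by
    rw [div_le_one a1R]
    exact_mod_cast (by omega : a0 ≤ a1)
  have k10 : ((a0 : ℝ) / a1) ^ αx ≤ ((a0 : ℝ) / a1) ^ α :=
    Real.rpow_le_rpow_of_exponent_ge (by positivity) hra hαx'
  have k11 : ((4 * a1 : ℝ) / s) ^ α = 4 ^ α * ((a1 : ℝ) / s) ^ α := by
    rw [mul_div_assoc, Real.mul_rpow (by norm_num) (by positivity)]
  rw [k11] at k7
  have hx1 : hx (2 * Real.cos θ) false (q m) (3 * a0) ρ N ≤
      1 / ce * hx (2 * Real.cos θ) false (q m) (4 * a0) (4 * a1) N := by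
    rw [one_div, ← div_eq_inv_mul, le_div_iff₀ hce]
    refine le_trans ?_ k5
    rw [mul_comm]
    exact mul_le_mul_of_nonneg_left k4 hce.le
  generalize hPI : Pr (2 * Real.cos θ) D η {ω | 8 * a1 ≤ s → HArm (q m) (4 * a1) s ω} = PI at *
  generalize hPF : Pr (2 * Real.cos θ) D η (DAr D (Wa q k l) (q m) s') = PF at *
  generalize hP4 : Pr (2 * Real.cos θ) D η (DAr D (Wa q k l) (q m) (4 * a1)) = P4 at *
  generalize hP0 : Pr (2 * Real.cos θ) D η (DAr D (Wa q k l) (q m) (4 * a0)) = P0 at *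
  have PI0 : 0 ≤ PI := hPI ▸ Pr_nonneg hQ0 _
  have PF0 : 0 ≤ PF := hPF ▸ Pr_nonneg hQ0 _
  have P40 : 0 ≤ P4 := hP4 ▸ Pr_nonneg hQ0 _
  have P00 : 0 ≤ P0 := hP0 ▸ Pr_nonneg hQ0 _
  change hx (2 * Real.cos θ) false (q m) (4 * a0) (4 * a1) N * P4 ≤ Cg * P0 at k6
  generalize hH : hx (2 * Real.cos θ) false (q m) (4 * a0) (4 * a1) N = H at *
  have H0 : 0 ≤ H := hH ▸ Pr_nonneg hQ0 _
  generalize hx (2 * Real.cos θ) false (q m) (3 * a0) ρ N = H3 at *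
  generalize pX (2 * Real.cos θ) true (q m) (3 * a0) (a1 / 2) = pI at *
  have hra0 : 0 ≤ ((a0 : ℝ) / a1) ^ α := by positivity
  have hrs0 : 0 ≤ ((a1 : ℝ) / s) ^ α := by positivity
  generalize ((a0 : ℝ) / a1) ^ αx = x1 at *
  generalize ((a0 : ℝ) / a1) ^ α = x2 at *
  generalize ((a1 : ℝ) / s) ^ α = x3 at *
  have c12 : (0 : ℝ) < 12 ^ αx := by positivity
  have c4 : (0 : ℝ) < 4 ^ α := by positivity
  have hM0 : 0 < max ch (8 ^ α) := lt_max_of_lt_left hch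
  generalize (12 : ℝ) ^ αx = t12 at *
  generalize (4 : ℝ) ^ α = t4 at *
  generalize max ch (8 ^ α) = M at *
  have l1 : pI ≤ Cx * t12 * x2 :=
    k9.trans (mul_le_mul_of_nonneg_left k10 (by positivity))
  have l2 : Pr (2 * Real.cos θ) D η (Xc true (q m) (3 * a0) (a1 / 2) ∩
      {ω | 8 * a1 ≤ s → HArm (q m) (4 * a1) s ω}) ≤ Cx * t12 * x2 * PI :=
    k2.trans (mul_le_mul_of_nonneg_right l1 PI0)
  have l3 : Pr (2 * Real.cos θ) D η (Xc false (q m) (3 * a0) ρ ∩ DAr D (Wa q k l) (q m) s') ≤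
      C7 * (1 / ce * H) * PF :=
    k3.trans (mul_le_mul_of_nonneg_right (mul_le_mul_of_nonneg_left hx1 hC7.le) PF0)
  calc Pr (2 * Real.cos θ) D η (Evs q D k l m a0 a1 s s')
      ≤ (Cx * t12 * x2 * PI) * (C7 * (1 / ce * H) * PF) :=
        k1.trans (mul_le_mul l2 l3 (Pr_nonneg hQ0 _) (by positivity))
    _ = Cx * t12 * x2 * (C7 * (1 / ce)) * H * (PI * PF) := by ring
    _ ≤ Cx * t12 * x2 * (C7 * (1 / ce)) * H * (M * ch * (t4 * x3) * P4) :=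
        mul_le_mul_of_nonneg_left k7 (by positivity)
    _ = Cx * t12 * x2 * (C7 * (1 / ce)) * (M * ch * (t4 * x3)) * (H * P4) := by ring
    _ ≤ Cx * t12 * x2 * (C7 * (1 / ce)) * (M * ch * (t4 * x3)) * (Cg * P0) :=
        mul_le_mul_of_nonneg_left k6 (by positivity)
    _ = Cx * t12 * (C7 * (1 / ce)) * (M * ch * t4) * Cg * x2 * x3 * P0 := by ring

end Vale.Agent.P167.H640.Pev
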